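import Vale.Agent.P181.FL2.Defs
import Vale.Agent.P181.FL.H908.Tr

/-!
# P181, FL2 [TRG]: from words in even letters to words in `M` odd letters
-/

set_option autoImplicit false

open scoped BigOperators

namespace Vale.Agent.P181.FL2.H340

open Finset
open Vale.Agent.P181.FL (Pos Cell HWW ColZ CapStmt)
open Vale.Agent.P181.FL.H908

/-- **[TRG]** -/
theorem trG : TrG := by
  intro hC N q m n M hD lam f hlam hle hf hs1 hs3
  refine hC n lam (Pos N q m) f hlam hf ?_
  intro l0
  let col : Cell lam → Fin M := fun x => ⟨x.2, lt_of_lt_of_le x.2.2 (hle x.1)⟩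
  have h0 : ∀ c, kap l0 col (fun x => x.1) f c = 0 := by
    refine hD (kap l0 col (fun x => x.1) f) ?_ ?_
    · intro e he c
      rw [kap_comp, kap]
      congr 1
      refine sum_congr rfl fun l _ => ?_
      rw [hs1 e he (fun p => (l p).1)]
    · intro c
      have h1 : ∀ g : Equiv.Perm (Fin N × Fin q),
          ((Equiv.Perm.sign (blk m g) : ℤ) : ℂ) *
            kap l0 col (fun x => x.1) f (fun p => c (blk m g p)) =
          ∑ l : Pos N q m ≃ Cell lam, if ∀ p, col (l p) = c p then
            ((Equiv.Perm.sign (l0.symm.trans l) : ℤ) : ℂ) *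
              f (fun p => (l (blk m g p)).1) else 0 := fun g => by
        rw [kap_comp l0 col (fun x => x.1) f c (blk m g), ← mul_assoc]
        have h2 : ((Equiv.Perm.sign (blk m g) : ℤ) : ℂ) * ((Equiv.Perm.sign (blk m g) : ℤ) : ℂ) =
            1 := by
          rcases Int.units_eq_one_or (Equiv.Perm.sign (blk m g)) with h | h <;> rw [h] <;> simp
        rw [h2, one_mul]
      rw [sum_congr rfl fun g _ => h1 g, sum_comm]
      refine sum_eq_zero fun l _ => ?_
      by_cases h : ∀ p, col (l p) = c p
      · simp only [if_pos h]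
        rw [← mul_sum, hs3 (fun p => (l p).1), mul_zero]
      · simp only [if_neg h]
        exact sum_const_zero
  have h1 := h0 (fun p => col (l0 p))
  rw [kap_self] at h1
  refine Eq.trans (sum_congr rfl fun g _ => ?_) h1
  have h2 : (∀ c, ((g c).2 : ℕ) = (c.2 : ℕ)) ↔ ∀ x, col (g x) = col x := by
    constructor
    · intro h x
      exact Fin.ext (h x)
    · intro h x
      exact congrArg Fin.val (h x)
  by_cases h : ∀ x, col (g x) = col x
  · rw [if_pos h, if_pos (h2.2 h)]
  · rw [if_neg h, if_neg (fun h3 => h (h2.1 h3))]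

end Vale.Agent.P181.FL2.H340
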