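import Vale.Agent.P181.FL2.Defs
import Vale.Agent.P181.FL.H605.Flat

/-!
# P181, FL2 [WRDG]: from words to multiplicities
-/

set_option autoImplicit false

open scoped TensorProduct BigOperators

namespace Vale.Agent.P181.FL2.H340

open Finset MvPolynomial
open Vale.Agent.P181 Vale.Agent.P181.H280
open Vale.Agent.P181.FL (Pos Cell HWW ColZ CapStmt)
open Vale.Agent.P181.FL.H605

/-- a permutation which respects the slots permutes them -/
theorem slot_perm {N q m : ℕ} (e : Equiv.Perm (Pos N q m)) (he : Slot e) (k0 : Fin q)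
    (s0 : Fin m) : ∃ σ : Equiv.Perm (Fin N), ∀ p : Pos N q m, (e p).1.1 = σ p.1.1 := by
  have h1 : ∀ p : Pos N q m, (e p).1.1 = (e ((p.1.1, k0), s0)).1.1 := fun p => he _ _ rfl
  have hs : Function.Surjective fun i : Fin N => (e ((i, k0), s0)).1.1 := by
    intro j
    refine ⟨(e.symm ((j, k0), s0)).1.1, ?_⟩
    have h2 := h1 (e.symm ((j, k0), s0))
    rw [Equiv.apply_symm_apply] at h2
    exact h2.symm
  exact ⟨Equiv.ofBijective _ (Finite.injective_iff_bijective.1
    (Finite.injective_iff_surjective.2 hs)), h1⟩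

section

variable {a q : ℕ}

theorem fw_slot (l : (Fin a → Fin (q * a) → (Fin a → ℂ)) →₀ ℂ) (hq : 1 ≤ q)
    (e : Equiv.Perm (Pos a q a)) (he : Slot e) (w : Pos a q a → Fin a) :
    fw l (fun p => w (e p)) = fw l w := by
  rcases Nat.eq_zero_or_pos a with ha | ha
  · subst ha
    congr 1
    funext p
    exact p.1.1.elim0
  · obtain ⟨σ, hσ⟩ := slot_perm e he ⟨0, hq⟩ ⟨0, ha⟩
    rw [fw_eq, fw_eq]
    rw [← formOf_symm l σ (fun i => ∏ k : Fin q, ∏ s : Fin a,
      (X (w ((i, k), s)) : MvPolynomial (Fin a) ℂ))]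
    congr 1
    funext i
    rw [row_eq w (σ i), ← Equiv.prod_comp e, row_eq (fun p => w (e p)) i]
    apply Finset.prod_congr rfl
    intro p _
    rw [hσ]
    by_cases h : p.1.1 = i
    · rw [if_pos h, if_pos (by rw [h])]
    · rw [if_neg h, if_neg (fun h' => h (σ.injective h'))]

/-- The case of `a` rows. -/
theorem inj_sq {M : ℕ} (h : WordG a q a a M) (hq : 1 ≤ q) (lam : Fin a → ℕ)
    (hanti : Antitone lam) (hlam : ∀ i, lam i ≤ M)
    (x : Sym[ℂ]^a (Sym[ℂ]^(q * a) (Fin a → ℂ))) (hx : x ∈ hwSpace lam (plethAct a (q * a) a))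
    (h0 : powMap a q (Fin a → ℂ) x = 0) : x = 0 := by
  classical
  obtain ⟨l, rfl⟩ := exists_elOf x
  have hf : ∀ w, fw l w = 0 := by
    refine h lam (fw l) hanti hlam (hww lam l hx) (fun e he w => fw_slot l hq e he w) ?_
    intro w
    have h1 := polar (rowProd q (formOf l)) (linS a ^ a) (by
      intro G hG
      rw [rowProd_apply, ← formOf_pow l h0 G hG]
      congr 1
      funext i
      rw [Finset.prod_const, Finset.card_univ, Fintype.card_fin])
      (fun ik : Fin a × Fin q => ∏ s : Fin a, (X (w (ik, s)) : MvPolynomial (Fin a) ℂ))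
      (fun ik => prod_mem_pow _ _ (fun s => X_mem_linS _))
    rw [← h1]
    apply Finset.sum_congr rfl
    intro g _
    rw [fw_eq, rowProd_apply]
    rfl
  apply elOf_eq_zero
  intro P hP
  apply multilinear_zero_of_span (formOf l)
    (Set.range (fun c : Fin (q * a) → Fin a => ∏ j, (X (c j) : MvPolynomial (Fin a) ℂ)))
  · intro w hw
    choose c hc using hw
    rw [← hf (fun p => c p.1.1 (finProdFinEquiv (p.1.2, p.2))), fw_eq]
    congr 1
    funext i
    rw [← hc i]
    show ∏ j, (X (c i j) : MvPolynomial (Fin a) ℂ) = _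
    rw [← Equiv.prod_comp finProdFinEquiv, Fintype.prod_prod_type]
  · intro i
    exact span_pow_eq _ _ (hP i)

theorem flat_sq {M : ℕ} (h : WordG a q a a M) (hq : 1 ≤ q) (lam : Fin a → ℕ)
    (hanti : Antitone lam) (hlam : ∀ i, lam i ≤ M) :
    plethMult a (q * a) a lam ≤ plethMult (q * a) a a lam :=
  finrank_le_of_inj (powMap a q (Fin a → ℂ)) _ _ (fun x hx => powMap_hwSpace lam x hx)
    (fun x hx h0 => inj_sq h hq lam hanti hlam x hx h0)

end

/-- **[WRDG]** -/
theorem wrdG : WrdG := by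
  intro a q M hq hW n lam hlam
  have h := hW a
  by_cases hz : plethMult a (q * a) n lam = 0
  · rw [hz]
    exact Nat.zero_le _
  obtain ⟨hanti, hsum, h0⟩ := H530.zero_stmt a (q * a) n lam hz
  clear hz hsum hW
  rcases Nat.le_total n a with hna | hna
  · obtain ⟨k, rfl⟩ := Nat.exists_eq_add_of_le hna
    rw [← H530.pad_stmt (n + k) (q * (n + k)) n k lam,
      ← H530.pad_stmt (q * (n + k)) (n + k) n k lam]
    apply flat_sq h hq
    · intro i j hij
      have hij' : (i : ℕ) ≤ j := hij
      dsimp only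
      split_ifs with h1 h2 h2
      · exact hanti (show (⟨i, h2⟩ : Fin n) ≤ ⟨j, h1⟩ from hij')
      · omega
      · exact Nat.zero_le _
      · exact le_rfl
    · intro i
      split_ifs with h1
      · exact hlam _
      · exact Nat.zero_le _
  · obtain ⟨k, rfl⟩ := Nat.exists_eq_add_of_le hna
    obtain ⟨mu, hmu⟩ : ∃ mu : Fin a → ℕ, mu = fun i => lam (Fin.castAdd k i) := ⟨_, rfl⟩
    have hl : lam = fun i : Fin (a + k) => if h : (i : ℕ) < a then mu ⟨i, h⟩ else 0 := by
      funext i
      by_cases hi : (i : ℕ) < a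
      · rw [dif_pos hi, hmu]
        congr 1
      · rw [dif_neg hi]
        exact h0 i (by omega)
    rw [hl, H530.pad_stmt a (q * a) a k mu, H530.pad_stmt (q * a) a a k mu]
    apply flat_sq h hq
    · rw [hmu]
      intro i j hij
      have hij' : (i : ℕ) ≤ j := hij
      exact hanti (show Fin.castAdd k i ≤ Fin.castAdd k j from hij')
    · intro i
      rw [hmu]
      exact hlam _

end Vale.Agent.P181.FL2.H340
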